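import Mathlib

/-!
# S0359 scalar leaf: the equality case of Clarkson's inequality for real numbers

For real `u v` and a real exponent `p`:
* `2 < p`:      `2 |u|^p + 2 |v|^p ≤ |u+v|^p + |u-v|^p`, with equality iff `u * v = 0`;
* `0 < p < 2`:  `|u+v|^p + |u-v|^p ≤ 2 |u|^p + 2 |v|^p`, with equality iff `u * v = 0`.
-/

set_option autoImplicit false

namespace Crest.Agent.Helper62.S0359

/-- `|x| ^ p = (x ^ 2) ^ (p / 2)`. -/
theorem abs_rpow_eq_sq_rpow (x p : ℝ) : |x| ^ p = (x ^ 2) ^ (p / 2) := by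
  rw [← sq_abs, ← Real.rpow_natCast, ← Real.rpow_mul (abs_nonneg x)]
  congr 1
  push_cast
  ring

/-- If `u * v = 0` then Clarkson's inequality is an equality (any exponent `p ≠ 0`). -/
theorem clarkson_eq_of_mul_eq_zero (p : ℝ) (hp : p ≠ 0) (u v : ℝ) (h : u * v = 0) :
    |u + v| ^ p + |u - v| ^ p = 2 * |u| ^ p + 2 * |v| ^ p := by
  rcases mul_eq_zero.1 h with h0 | h0
  · subst h0
    simp [Real.zero_rpow hp]; ring
  · subst h0
    simp [Real.zero_rpow hp]; ring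

/-- Clarkson, `2 < p`: the inequality. -/
theorem clarkson_ge (p : ℝ) (hp : 2 < p) (u v : ℝ) :
    2 * |u| ^ p + 2 * |v| ^ p ≤ |u + v| ^ p + |u - v| ^ p := by
  have hq : 1 < p / 2 := by linarith
  simp only [abs_rpow_eq_sq_rpow]
  have ha : (0 : ℝ) ≤ (u + v) ^ 2 := sq_nonneg _
  have hb : (0 : ℝ) ≤ (u - v) ^ 2 := sq_nonneg _
  have hconv := (convexOn_rpow hq.le).2 (Set.mem_Ici.2 ha) (Set.mem_Ici.2 hb)
    (by norm_num : (0 : ℝ) ≤ 1 / 2) (by norm_num : (0 : ℝ) ≤ 1 / 2) (by norm_num)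
  simp only [smul_eq_mul] at hconv
  have hmid : 1 / 2 * (u + v) ^ 2 + 1 / 2 * (u - v) ^ 2 = u ^ 2 + v ^ 2 := by ring
  rw [hmid] at hconv
  have hsup := Real.add_rpow_le_rpow_add (sq_nonneg u) (sq_nonneg v) hq.le
  linarith

/-- Clarkson, `2 < p`: equality forces `u * v = 0`. -/
theorem mul_eq_zero_of_clarkson_eq_of_two_lt (p : ℝ) (hp : 2 < p) (u v : ℝ)
    (h : |u + v| ^ p + |u - v| ^ p = 2 * |u| ^ p + 2 * |v| ^ p) : u * v = 0 := by
  have hq : 1 < p / 2 := by linarith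
  simp only [abs_rpow_eq_sq_rpow] at h
  have ha : (0 : ℝ) ≤ (u + v) ^ 2 := sq_nonneg _
  have hb : (0 : ℝ) ≤ (u - v) ^ 2 := sq_nonneg _
  by_contra hne
  have hab : (u + v) ^ 2 ≠ (u - v) ^ 2 := by
    intro hEq
    apply hne
    nlinarith
  have hconv := (strictConvexOn_rpow hq).2 (Set.mem_Ici.2 ha) (Set.mem_Ici.2 hb) hab
    (by norm_num : (0 : ℝ) < 1 / 2) (by norm_num : (0 : ℝ) < 1 / 2) (by norm_num)
  simp only [smul_eq_mul] at hconv
  have hmid : 1 / 2 * (u + v) ^ 2 + 1 / 2 * (u - v) ^ 2 = u ^ 2 + v ^ 2 := by ring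
  rw [hmid] at hconv
  have hsup := Real.add_rpow_le_rpow_add (sq_nonneg u) (sq_nonneg v) hq.le
  linarith

/-- Clarkson, `0 < p < 2`: the (reverse) inequality. -/
theorem clarkson_le (p : ℝ) (hp0 : 0 < p) (hp : p < 2) (u v : ℝ) :
    |u + v| ^ p + |u - v| ^ p ≤ 2 * |u| ^ p + 2 * |v| ^ p := by
  have hq0 : 0 < p / 2 := by linarith
  have hq : p / 2 < 1 := by linarith
  simp only [abs_rpow_eq_sq_rpow]
  have ha : (0 : ℝ) ≤ (u + v) ^ 2 := sq_nonneg _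
  have hb : (0 : ℝ) ≤ (u - v) ^ 2 := sq_nonneg _
  have hconc := (Real.concaveOn_rpow hq0.le hq.le).2 (Set.mem_Ici.2 ha) (Set.mem_Ici.2 hb)
    (by norm_num : (0 : ℝ) ≤ 1 / 2) (by norm_num : (0 : ℝ) ≤ 1 / 2) (by norm_num)
  simp only [smul_eq_mul] at hconc
  have hmid : 1 / 2 * (u + v) ^ 2 + 1 / 2 * (u - v) ^ 2 = u ^ 2 + v ^ 2 := by ring
  rw [hmid] at hconc
  have hsub := Real.rpow_add_le_add_rpow (sq_nonneg u) (sq_nonneg v) hq0.le hq.le
  linarith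

/-- Clarkson, `0 < p < 2`: equality forces `u * v = 0`. -/
theorem mul_eq_zero_of_clarkson_eq_of_lt_two (p : ℝ) (hp0 : 0 < p) (hp : p < 2) (u v : ℝ)
    (h : |u + v| ^ p + |u - v| ^ p = 2 * |u| ^ p + 2 * |v| ^ p) : u * v = 0 := by
  have hq0 : 0 < p / 2 := by linarith
  have hq : p / 2 < 1 := by linarith
  simp only [abs_rpow_eq_sq_rpow] at h
  have ha : (0 : ℝ) ≤ (u + v) ^ 2 := sq_nonneg _
  have hb : (0 : ℝ) ≤ (u - v) ^ 2 := sq_nonneg _
  by_contra hne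
  have hab : (u + v) ^ 2 ≠ (u - v) ^ 2 := by
    intro hEq
    apply hne
    nlinarith
  have hconc := (Real.strictConcaveOn_rpow hq0 hq).2 (Set.mem_Ici.2 ha) (Set.mem_Ici.2 hb) hab
    (by norm_num : (0 : ℝ) < 1 / 2) (by norm_num : (0 : ℝ) < 1 / 2) (by norm_num)
  simp only [smul_eq_mul] at hconc
  have hmid : 1 / 2 * (u + v) ^ 2 + 1 / 2 * (u - v) ^ 2 = u ^ 2 + v ^ 2 := by ring
  rw [hmid] at hconc
  have hsub := Real.rpow_add_le_add_rpow (sq_nonneg u) (sq_nonneg v) hq0.le hq.le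
  linarith

/-- **Equality case of Clarkson's inequality** for real numbers, `0 < p`, `p ≠ 2`. -/
theorem clarkson_eq_iff (p : ℝ) (hp0 : 0 < p) (hp2 : p ≠ 2) (u v : ℝ) :
    |u + v| ^ p + |u - v| ^ p = 2 * |u| ^ p + 2 * |v| ^ p ↔ u * v = 0 := by
  refine ⟨fun h => ?_, clarkson_eq_of_mul_eq_zero p hp0.ne' u v⟩
  rcases lt_or_gt_of_ne hp2 with hlt | hgt
  · exact mul_eq_zero_of_clarkson_eq_of_lt_two p hp0 hlt u v h
  · exact mul_eq_zero_of_clarkson_eq_of_two_lt p hgt u v h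

end Crest.Agent.Helper62.S0359
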