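import Mathlib
import Crest.Agent.Helper64.S0359.Defs
import Crest.Agent.Helper62.S0359.Clarkson

/-!
# S0359 package B2–B8: energies of real functions on a finite type

Exact Blueprint statements (`Crest/Agent/Helper64/S0359/Blueprint.lean`), proved.
Also the Blueprint forms A3–A6 of the scalar Clarkson inequalities (conclusion `a = 0 ∨ b = 0`).
-/

set_option autoImplicit false

namespace Crest.Agent.Helper62.S0359

open Crest.Agent.Helper64.S0359

/-! ## Package A3–A6 in the Blueprint forms -/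

/-- A3: two-point Clarkson inequality, `q > 2`. -/
theorem clarkson_gt_two (q : ℝ) (hq : 2 < q) (a b : ℝ) :
    2 * |a| ^ q + 2 * |b| ^ q ≤ |a + b| ^ q + |a - b| ^ q :=
  clarkson_ge q hq a b

/-- A4: equality case of A3. -/
theorem clarkson_gt_two_eq (q : ℝ) (hq : 2 < q) (a b : ℝ)
    (h : |a + b| ^ q + |a - b| ^ q = 2 * |a| ^ q + 2 * |b| ^ q) : a = 0 ∨ b = 0 :=
  mul_eq_zero.1 (mul_eq_zero_of_clarkson_eq_of_two_lt q hq a b h)

/-- A5: two-point Clarkson inequality, `1 < q < 2`. -/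
theorem clarkson_lt_two (q : ℝ) (hq1 : 1 < q) (hq : q < 2) (a b : ℝ) :
    |a + b| ^ q + |a - b| ^ q ≤ 2 * |a| ^ q + 2 * |b| ^ q :=
  clarkson_le q (by linarith) hq a b

/-- A6: equality case of A5. -/
theorem clarkson_lt_two_eq (q : ℝ) (hq1 : 1 < q) (hq : q < 2) (a b : ℝ)
    (h : |a + b| ^ q + |a - b| ^ q = 2 * |a| ^ q + 2 * |b| ^ q) : a = 0 ∨ b = 0 :=
  mul_eq_zero.1 (mul_eq_zero_of_clarkson_eq_of_lt_two q (by linarith) hq a b h)

/-! ## Package B -/

section B
variable {ι : Type*} [Fintype ι]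

/-- B2 (disjoint supports; from A3–A6). -/
theorem disjoint_of_energy (q : ℝ) (hq1 : 1 < q) (hq2 : q ≠ 2) (a b : ι → ℝ)
    (h : energy q (a + b) + energy q (a - b) = 2 * energy q a + 2 * energy q b) :
    ∀ t, a t = 0 ∨ b t = 0 := by
  unfold energy at h
  simp only [Pi.add_apply, Pi.sub_apply] at h
  rcases lt_or_gt_of_ne hq2 with hlt | hgt
  · -- 1 < q < 2 : defects `2|a|^q + 2|b|^q - |a+b|^q - |a-b|^q` are nonnegative
    have hsum : ∑ t, (2 * |a t| ^ q + 2 * |b t| ^ q - (|a t + b t| ^ q + |a t - b t| ^ q)) = 0 := by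
      simp only [Finset.sum_sub_distrib, Finset.sum_add_distrib, ← Finset.mul_sum]
      linarith
    have hnn : ∀ t ∈ (Finset.univ : Finset ι),
        0 ≤ 2 * |a t| ^ q + 2 * |b t| ^ q - (|a t + b t| ^ q + |a t - b t| ^ q) := fun t _ =>
      sub_nonneg.2 (clarkson_lt_two q hq1 hlt (a t) (b t))
    intro t
    have ht := (Finset.sum_eq_zero_iff_of_nonneg hnn).1 hsum t (Finset.mem_univ t)
    exact clarkson_lt_two_eq q hq1 hlt (a t) (b t) (by linarith)
  · -- 2 < q : defects `|a+b|^q + |a-b|^q - 2|a|^q - 2|b|^q` are nonnegative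
    have hsum : ∑ t, (|a t + b t| ^ q + |a t - b t| ^ q - (2 * |a t| ^ q + 2 * |b t| ^ q)) = 0 := by
      simp only [Finset.sum_sub_distrib, Finset.sum_add_distrib, ← Finset.mul_sum]
      linarith
    have hnn : ∀ t ∈ (Finset.univ : Finset ι),
        0 ≤ |a t + b t| ^ q + |a t - b t| ^ q - (2 * |a t| ^ q + 2 * |b t| ^ q) := fun t _ =>
      sub_nonneg.2 (clarkson_gt_two q hgt (a t) (b t))
    intro t
    have ht := (Finset.sum_eq_zero_iff_of_nonneg hnn).1 hsum t (Finset.mem_univ t)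
    exact clarkson_gt_two_eq q hgt (a t) (b t) (by linarith)

/-- B3. -/
theorem energy_add_eq_sub (q : ℝ) (a b : ι → ℝ) (h : ∀ t, a t = 0 ∨ b t = 0) :
    energy q (a + b) = energy q (a - b) := by
  unfold energy
  refine Finset.sum_congr rfl fun t _ => ?_
  simp only [Pi.add_apply, Pi.sub_apply]
  rcases h t with h0 | h0
  · rw [h0, zero_add, zero_sub, abs_neg]
  · rw [h0, add_zero, sub_zero]

/-- B4. -/
theorem energy_neg (q : ℝ) (f : ι → ℝ) : energy q (-f) = energy q f := by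
  unfold energy
  refine Finset.sum_congr rfl fun t _ => ?_
  simp only [Pi.neg_apply, abs_neg]

/-- B5. -/
theorem energy_sub_neg (q : ℝ) (f : ι → ℝ) : energy q (f - (-f)) = 2 ^ q * energy q f := by
  unfold energy
  rw [Finset.mul_sum]
  refine Finset.sum_congr rfl fun t _ => ?_
  simp only [Pi.sub_apply, Pi.neg_apply, sub_neg_eq_add]
  have h2 : |f t + f t| = 2 * |f t| := by
    rw [← two_mul, abs_mul, abs_of_pos (by norm_num : (0 : ℝ) < 2)]
  rw [h2, Real.mul_rpow (by norm_num) (abs_nonneg _)]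

/-- B6. -/
theorem energy_add_of_disjoint (q : ℝ) (hq : 0 < q) (f g : ι → ℝ)
    (h : ∀ t, f t = 0 ∨ g t = 0) : energy q (f + g) = energy q f + energy q g := by
  unfold energy
  rw [← Finset.sum_add_distrib]
  refine Finset.sum_congr rfl fun t _ => ?_
  simp only [Pi.add_apply]
  rcases h t with h0 | h0
  · rw [h0, zero_add, abs_zero, Real.zero_rpow hq.ne', zero_add]
  · rw [h0, add_zero, abs_zero, Real.zero_rpow hq.ne', add_zero]

/-- B7. -/
theorem energy_sub_lt_add (q : ℝ) (hq : 0 < q) (f g : ι → ℝ) (hf : ∀ t, 0 ≤ f t)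
    (hg : ∀ t, 0 ≤ g t) (h : ∃ t, 0 < f t ∧ 0 < g t) :
    energy q (f - g) < energy q (f + g) := by
  unfold energy
  simp only [Pi.add_apply, Pi.sub_apply]
  apply Finset.sum_lt_sum
  · intro t _
    apply Real.rpow_le_rpow (abs_nonneg _) _ hq.le
    rw [abs_of_nonneg (add_nonneg (hf t) (hg t)), abs_le]
    constructor <;> linarith [hf t, hg t]
  · obtain ⟨t, hft, hgt⟩ := h
    refine ⟨t, Finset.mem_univ t, ?_⟩
    apply Real.rpow_lt_rpow (abs_nonneg _) _ hq
    rw [abs_of_nonneg (add_nonneg (hf t) (hg t)), abs_lt]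
    constructor <;> linarith

/-- B8. -/
theorem eq_of_energy_sub_eq_zero (q : ℝ) (hq : 0 < q) (f g : ι → ℝ)
    (h : energy q (f - g) = 0) : f = g := by
  have _ := hq
  unfold energy at h
  have hnn : ∀ t ∈ (Finset.univ : Finset ι), 0 ≤ |(f - g) t| ^ q := fun t _ =>
    Real.rpow_nonneg (abs_nonneg _) q
  funext t
  have ht := (Finset.sum_eq_zero_iff_of_nonneg hnn).1 h t (Finset.mem_univ t)
  rw [Real.rpow_eq_zero_iff_of_nonneg (abs_nonneg _)] at ht
  have := abs_eq_zero.1 ht.1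
  simp only [Pi.sub_apply] at this
  linarith

end B

end Crest.Agent.Helper62.S0359
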